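import Vale.Agent.P144F58.Defs
import Mathlib.Analysis.Distribution.Distribution
import Mathlib.Analysis.Fourier.FourierTransform

/-!
Convergence in law of the spin field in the negative Sobolev spaces of a bounded open set.
-/

namespace Vale.Agent.P144H

open Filter Topology MeasureTheory TopologicalSpace Vale.Agent.P144 Vale.Agent.P144F58
open scoped FourierTransform

/-- Smooth functions of compact support in `D`. -/
abbrev SmoothOn (D : Opens ℂ) : Type := TestFunction D ℝ ⊤

variable {D : Opens ℂ} {H : Type} [NormedAddCommGroup H] [InnerProductSpace ℝ H]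

/-- `H` is the completion, through `J`, of the test functions on `D` for the norm of `H^s`. -/
def IsH0 (s : ℝ) (J : SmoothOn D →ₗ[ℝ] H) : Prop :=
  CompleteSpace H ∧ DenseRange J ∧
    ∀ f, ‖J f‖ ^ 2 = ∫ ξ : ℂ, (1 + ‖ξ‖ ^ 2) ^ s * ‖𝓕 (fun z => (f z : ℂ)) ξ‖ ^ 2

/-- `P` is a Borel probability measure on the dual of `H` whose mixed moments on test functions
are the integrals of `Z ^ n * C`. -/
def DualMom (Z : ℝ) (C : Pts → ℝ) (J : SmoothOn D →ₗ[ℝ] H)
    (P : @Measure (StrongDual ℝ H) (borel _)) : Prop :=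
  IsProbabilityMeasure P ∧ ∀ n > 0, ∀ f : Fin n → SmoothOn D,
    Integrable (fun T : StrongDual ℝ H => ∏ i, T (J (f i))) P ∧
    ∫ T, ∏ i, T (J (f i)) ∂P = Z ^ n * ∫ x : Fin n → ℂ, (∏ i, f i (x i)) * C ⟨n, 0, x, ![], ![]⟩

/-- The spin field of mesh `a` is a random element `X a` of the dual of `H`, and its law converges
weakly, for the dual norm, to the only law with the limiting moments. -/
def DualLaw (μ : Measure Config) (Z : ℝ) (C : Pts → ℝ) (J : SmoothOn D →ₗ[ℝ] H) : Prop :=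
  ∃ X : ℝ → Config → StrongDual ℝ H,
    (∀ a > 0, @Measurable _ _ _ (borel _) (X a) ∧ ∀ σ f, X a σ (J f) = smear a f σ) ∧
    ∃ P, DualMom Z C J P ∧ (∀ P', DualMom Z C J P' → P' = P) ∧
      ∀ F : BoundedContinuousFunction (StrongDual ℝ H) ℝ,
        Tendsto (fun a => ∫ σ, F (X a σ) ∂μ) (𝓝[>] 0) (𝓝 (∫ T, F T ∂P))

/-- For every bounded open `D` and every `s > 1` the space `H^s_0(D)` exists and the spin field
converges in law in its dual `H^{-s}(D)`. -/
def LawH (μ : Measure Config) (Z : ℝ) (C : Pts → ℝ) : Prop :=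
  ∀ (D : Opens ℂ) (s : ℝ), Bornology.IsBounded (D : Set ℂ) → 1 < s →
    (∃ (H : Type) (_ : NormedAddCommGroup H) (_ : InnerProductSpace ℝ H)
      (J : SmoothOn D →ₗ[ℝ] H), IsH0 s J) ∧
    ∀ (H : Type) [NormedAddCommGroup H] [InnerProductSpace ℝ H] (J : SmoothOn D →ₗ[ℝ] H),
      IsH0 s J → DualLaw μ Z C J

end Vale.Agent.P144H
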