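import Vale.Agent.P144W.Sep

/-!
Second moments of the spin field tested against bounded Hilbert space valued functions.
-/

set_option autoImplicit false
set_option linter.all false

noncomputable section

namespace Vale.Agent.P144H

open MeasureTheory Filter Topology Metric Set Vale.Agent.P144 Vale.Agent.P144W

theorem two_pt {μ : Measure Config} (hF : Fd μ ph) : ∃ K : ℝ, 0 ≤ K ∧ ∀ a > (0 : ℝ), ∀ z w : ℂ,
    w ≠ z → |∫ σ, ph a z σ * ph a w σ ∂μ| ≤ K * ‖w - z‖ ^ (-(1 / 4) : ℝ) := by
  haveI := hF.prob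
  obtain ⟨K, T, hK, hT, h⟩ := hF.sep 2 (1 / 2) (by norm_num)
  refine ⟨K * 2 ^ (-(1 / 4) : ℝ) + (2 / T) ^ (-(1 / 4) : ℝ), by positivity, fun a ha z w hw => ?_⟩
  have hr : 0 < ‖w - z‖ := norm_pos_iff.2 (sub_ne_zero.2 hw)
  have sq : ∀ t : ℝ, 0 ≤ t → (t ^ (-(1 / 8) : ℝ)) ^ 2 = t ^ (-(1 / 4) : ℝ) := fun t ht => by
    rw [← Real.rpow_natCast, ← Real.rpow_mul ht]
    norm_num
  have p1 : 0 ≤ K * 2 ^ (-(1 / 4) : ℝ) * ‖w - z‖ ^ (-(1 / 4) : ℝ) := by positivity
  have p2 : 0 ≤ (2 / T) ^ (-(1 / 4) : ℝ) * ‖w - z‖ ^ (-(1 / 4) : ℝ) := by positivity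
  rw [add_mul]
  by_cases c : T * a ≤ 2 * ‖w - z‖
  · have := h a (2 * ‖w - z‖) z ![z, w] ha c (fun i => by
      fin_cases i
      · simpa using hr
      · simp only [mem_ball, dist_eq_norm]
        show ‖w - z‖ < _
        linarith) (fun i j hij => by
      fin_cases i <;> fin_cases j
      · exact absurd rfl hij
      · show _ ≤ ‖z - w‖
        rw [norm_sub_rev z w]
        linarith
      · show _ ≤ ‖w - z‖
        linarith
      · exact absurd rfl hij)
    rw [sq _ (by positivity), Real.mul_rpow (by norm_num) hr.le, cr] at this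
    simp only [Fin.prod_univ_two, Matrix.cons_val_zero, Matrix.cons_val_one] at this
    linarith
  · have h1 : |∫ σ, ph a z σ * ph a w σ ∂μ| ≤ a ^ (-(1 / 4) : ℝ) := by
      rw [← Real.norm_eq_abs, ← sq a ha.le]
      refine (norm_integral_le_of_norm_le_const (C := (a ^ (-(1 / 8) : ℝ)) ^ 2)
        (Eventually.of_forall fun σ => ?_)).trans (by simp)
      rw [Real.norm_eq_abs, abs_mul, pow_two]
      exact mul_le_mul (hF.bd a ha z σ) (hF.bd a ha w σ) (abs_nonneg _) (by positivity)
    have h2 : a ^ (-(1 / 4) : ℝ) ≤ (2 / T * ‖w - z‖) ^ (-(1 / 4) : ℝ) := by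
      refine Real.rpow_le_rpow_of_nonpos (by positivity) ?_ (by norm_num)
      rw [div_mul_eq_mul_div, div_le_iff₀ hT]
      linarith
    rw [Real.mul_rpow (by positivity) hr.le] at h2
    linarith

variable {H : Type} [NormedAddCommGroup H] [InnerProductSpace ℝ H] [CompleteSpace H]

theorem sm_int {μ : Measure Config} (hF : Fd μ ph) (a : ℝ) {b : ℂ → H}
    (hb : StronglyMeasurable b) :
    StronglyMeasurable fun p : ℂ × Config => ph a p.1 p.2 • b p.1 :=
  (hF.meas a).stronglyMeasurable.smul (hb.comp_measurable measurable_fst)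

theorem int_W {μ : Measure Config} (hF : Fd μ ph) (R : ℝ) {a : ℝ} (ha : 0 < a) {b : ℂ → H}
    (hb : StronglyMeasurable b) {M : ℝ} (hM : ∀ z, ‖b z‖ ≤ M) (σ : Config) :
    Integrable (fun z => ph a z σ • b z) (volume.restrict (ball (0 : ℂ) R)) := by
  haveI : IsFiniteMeasure (volume.restrict (ball (0 : ℂ) R)) :=
    isFiniteMeasure_restrict.2 measure_ball_lt_top.ne
  refine Integrable.of_bound ((sm_int hF a hb).comp_measurable
    (measurable_id.prodMk measurable_const)).aestronglyMeasurable (a ^ (-(1 / 8) : ℝ) * M)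
    (Eventually.of_forall fun z => ?_)
  rw [norm_smul]
  exact mul_le_mul (hF.bd a ha z σ) (hM z) (norm_nonneg _) (by positivity)

theorem momH {μ : Measure Config} (hF : Fd μ ph) (R : ℝ) : ∃ A : ℝ, 0 ≤ A ∧ ∀ a > (0 : ℝ),
    ∀ b : ℂ → H, StronglyMeasurable b → ∀ M : ℝ, (∀ z, ‖b z‖ ≤ M) →
      ∫ σ, ‖∫ z in ball (0 : ℂ) R, ph a z σ • b z‖ ^ 2 ∂μ ≤ A * M ^ 2 := by
  haveI := hF.prob
  obtain ⟨K, hK, h⟩ := two_pt hF
  set m := volume.restrict (ball (0 : ℂ) R) with hm
  haveI : IsFiniteMeasure m := isFiniteMeasure_restrict.2 measure_ball_lt_top.ne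
  let G : ℂ → ℝ := (ball (0 : ℂ) (R + R)).indicator fun w => K * ‖w‖ ^ (-(1 / 4) : ℝ)
  have G0 : ∀ w, 0 ≤ G w := fun w => indicator_nonneg (fun w _ => by positivity) w
  have hG : Integrable G := by
    refine (integrable_indicator_iff measurableSet_ball).2 ?_
    refine integrableOn_ball_of_norm_le_rpow (C := K) (α := 1 / 4) (by simp) (by simp; norm_num)
      (Eventually.of_forall fun x => ?_) (Measurable.aestronglyMeasurable (by fun_prop))
    rw [Real.norm_of_nonneg (by positivity)]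
  refine ⟨(∫ w, G w) * m.real univ, mul_nonneg (integral_nonneg G0) measureReal_nonneg,
    fun a ha b hb M hM => ?_⟩
  have M0 : 0 ≤ M := (norm_nonneg _).trans (hM 0)
  have ib : ∀ z w, |inner ℝ (b z) (b w)| ≤ M ^ 2 := fun z w =>
    (abs_real_inner_le_norm _ _).trans (by
      rw [pow_two]; exact mul_le_mul (hM z) (hM w) (norm_nonneg _) M0)
  let Φ : Config → ℂ × ℂ → ℝ := fun σ p => ph a p.1 σ * ph a p.2 σ * inner ℝ (b p.1) (b p.2)
  have e1 : ∀ σ, ‖∫ z, ph a z σ • b z ∂m‖ ^ 2 = ∫ p, Φ σ p ∂m.prod m := fun σ => by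
    have := integral_prod_bilin (innerSL ℝ (E := H)) (int_W hF R ha hb hM σ)
      (int_W hF R ha hb hM σ)
    rw [← real_inner_self_eq_norm_sq]
    refine (this.symm).trans (integral_congr_ae (Eventually.of_forall fun p => ?_))
    show inner ℝ (ph a p.1 σ • b p.1) (ph a p.2 σ • b p.2) =
      ph a p.1 σ * ph a p.2 σ * inner ℝ (b p.1) (b p.2)
    rw [real_inner_smul_left, real_inner_smul_right, mul_assoc]
  have mΦ : Measurable (Function.uncurry Φ) :=
    (((hF.meas a).comp (measurable_snd.fst.prodMk measurable_fst)).mul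
      ((hF.meas a).comp (measurable_snd.snd.prodMk measurable_fst))).mul
      ((hb.comp_measurable measurable_snd.fst).inner
        (hb.comp_measurable measurable_snd.snd)).measurable
  have iΦ : Integrable (Function.uncurry Φ) (μ.prod (m.prod m)) := by
    refine Integrable.of_bound mΦ.aestronglyMeasurable
      (a ^ (-(1 / 8) : ℝ) * a ^ (-(1 / 8) : ℝ) * M ^ 2) (Eventually.of_forall fun q => ?_)
    show |ph a q.2.1 q.1 * ph a q.2.2 q.1 * inner ℝ (b q.2.1) (b q.2.2)| ≤ _
    rw [abs_mul, abs_mul]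
    exact mul_le_mul (mul_le_mul (hF.bd a ha _ _) (hF.bd a ha _ _) (abs_nonneg _) (by positivity))
      (ib _ _) (abs_nonneg _) (by positivity)
  simp only [e1]
  rw [integral_integral_swap iΦ,
    integral_prod (fun y => ∫ x, Φ x y ∂μ) iΦ.integral_prod_right]
  refine (le_abs_self _).trans ?_
  rw [← Real.norm_eq_abs, mul_right_comm]
  refine norm_integral_le_of_norm_le_const ?_
  filter_upwards [ae_restrict_mem measurableSet_ball] with z hz
  have i1 : Integrable fun w => G (w - z) * M ^ 2 := (hG.comp_sub_right z).mul_const _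
  refine (norm_integral_le_of_norm_le i1.integrableOn ?_).trans ?_
  · filter_upwards [ae_restrict_mem measurableSet_ball,
      ae_restrict_of_ae (compl_mem_ae_iff.2 (measure_singleton z))] with w hw hwz
    have hw' : w - z ∈ ball (0 : ℂ) (R + R) := by
      rw [mem_ball_zero_iff] at *
      exact (norm_sub_le _ _).trans_lt (add_lt_add hw hz)
    simp only [Φ, G, indicator_of_mem hw']
    rw [integral_mul_const, Real.norm_eq_abs, abs_mul]
    exact mul_le_mul (h a ha z w hwz) (ib _ _) (abs_nonneg _) (by positivity)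
  · refine (setIntegral_le_integral i1 (Eventually.of_forall fun w =>
      mul_nonneg (G0 _) (by positivity))).trans ?_
    rw [integral_mul_const, integral_sub_right_eq_self G z]

end Vale.Agent.P144H
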