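import Vale.Agent.P144H.Defs
import Vale.Agent.P144H.Mom
import Vale.Agent.P153DH.Kit
import Vale.Agent.P153DK.Abs
import Mathlib.MeasureTheory.Measure.SeparableMeasure

/-!
The spin field converges in law in the negative Sobolev spaces.
-/

set_option autoImplicit false
set_option linter.all false

noncomputable section

namespace Vale.Agent.P144H

open MeasureTheory Filter Topology Metric Set TopologicalSpace Vale.Agent.P144 Vale.Agent.P144W
open Vale.Agent.P144F58 Vale.Agent.P153.H212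
open Vale.Agent.P153DH (Rep H0)
open scoped FourierTransform

theorem test_on {D : Opens ℂ} (f : SmoothOn D) : TestOn D f :=
  ⟨f.contDiff, f.hasCompactSupport, f.tsupport_subset⟩

theorem test {D : Opens ℂ} (f : SmoothOn D) : Test f := by
  refine ⟨f.contDiff.continuous.measurable, ?_,
    f.hasCompactSupport.isCompact.isBounded.subset (subset_tsupport _)⟩
  obtain ⟨B, hB⟩ := f.contDiff.continuous.bounded_above_of_compact_support f.hasCompactSupport
  exact ⟨B, hB⟩

theorem rep_uq {s : ℝ} {D : Set ℂ} {φ : ℂ → ℝ} {a b : H0 s D} (ha : Rep s φ a) (hb : Rep s φ b) :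
    a = b := Subtype.ext (Lp.ext (ha.trans hb.symm))

theorem rep_norm {s : ℝ} {φ : ℂ → ℝ} {a : Lp ℂ 2 (volume : Measure ℂ)} (ha : Rep s φ a) :
    ‖a‖ ^ 2 = ∫ ξ : ℂ, (1 + ‖ξ‖ ^ 2) ^ s * ‖𝓕 (fun z => (φ z : ℂ)) ξ‖ ^ 2 := by
  rw [← real_inner_self_eq_norm_sq, L2.inner_def]
  refine integral_congr_ae ?_
  filter_upwards [ha] with ξ h
  rw [real_inner_self_eq_norm_sq, h, norm_mul, mul_pow, Complex.norm_real, Real.norm_eq_abs, sq_abs,
    ← Real.rpow_natCast (_ ^ (s / 2)), ← Real.rpow_mul (by positivity)]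
  congr 2
  push_cast
  ring

theorem exists_R (D : Opens ℂ) {s : ℝ} (hs : 1 < s) :
    ∃ R : SmoothOn D →ₗ[ℝ] H0 s D, (∀ f : SmoothOn D, Rep s f (R f)) ∧ IsH0 s R := by
  obtain ⟨k1, k2, -⟩ := P153DH.kit_thm s D hs
  choose r hr using fun f : SmoothOn D => k1 f (test_on f)
  have lin : ∀ (c : ℝ) (f g : SmoothOn D), r (c • f + g) = c • r f + r g := fun c f g =>
    rep_uq (hr _) (P153DH.rep_lin (test_on f) (test_on g) c (hr f) (hr g))
  have r0 : r 0 = 0 := rep_uq (hr _) (P153DH.rep_zero s)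
  refine ⟨⟨⟨r, fun f g => ?_⟩, fun c f => ?_⟩, hr,
    (Submodule.isClosed_topologicalClosure _).completeSpace_coe, k2.mono ?_,
    fun f => rep_norm (hr f)⟩
  · have := lin 1 f g
    rwa [one_smul, one_smul] at this
  · have := lin c f 0
    rwa [add_zero, r0, add_zero] at this
  · rintro a ⟨φ, h1, h2⟩
    exact ⟨⟨φ, h1.1, h1.2.1, h1.2.2⟩, rep_uq (hr _) h2⟩

variable {D : Opens ℂ} {H : Type} [NormedAddCommGroup H] [InnerProductSpace ℝ H]

theorem kern {s : ℝ} (hs : 1 < s) {J : SmoothOn D →ₗ[ℝ] H} (hJ : IsH0 s J) :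
    SecondCountableTopology H ∧ ∃ (k : ℂ → H) (M : ℝ), Continuous k ∧ (∀ x, ‖k x‖ ≤ M) ∧
      ∀ x f, inner ℝ (J f) (k x) = f x := by
  obtain ⟨R, h1, h⟩ := exists_R D hs
  obtain ⟨-, -, k, M, k1, k2, k3⟩ := P153DH.kit_thm s D hs
  have := h.1
  have := hJ.1
  have hn : ∀ f, ‖J (LinearEquiv.refl ℝ (SmoothOn D) f)‖ = ‖R f‖ := fun f =>
    (pow_left_inj₀ (norm_nonneg _) (norm_nonneg _) two_ne_zero).1
      ((hJ.2.2 f).trans (h.2.2 f).symm)
  let ι : H0 s D ≃ₗᵢ[ℝ] H := (LinearEquiv.refl ℝ (SmoothOn D)).extendOfIsometry R J h.2.1 hJ.2.1 hn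
  have hι : ∀ f, ι (R f) = J f := fun f =>
    LinearEquiv.extendOfIsometry_eq _ R J h.2.1 hJ.2.1 hn f
  haveI : Fact ((2 : ENNReal) ≠ ⊤) := ⟨by simp⟩
  refine ⟨ι.symm.toHomeomorph.isEmbedding.secondCountableTopology, fun x => ι (k x), M,
    ι.continuous.comp k1, fun x => by rw [ι.norm_map]; exact k2 x, fun x f => ?_⟩
  rw [← hι, ι.inner_map_map, real_inner_comm]
  exact k3 x f _ (test_on f) (h1 f)

theorem conv {μ : Measure Config} (hF : Fd μ ph) (hD : Bornology.IsBounded (D : Set ℂ))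
    [CompleteSpace H] [SecondCountableTopology H] [MeasurableSpace H] [BorelSpace H]
    {J : SmoothOn D →ₗ[ℝ] H} {k : ℂ → H} {M : ℝ} (k1 : Continuous k) (k2 : ∀ x, ‖k x‖ ≤ M)
    (k3 : ∀ x f, inner ℝ (J f) (k x) = f x) :
    ∃ W : ℝ → Config → H, (∀ a, Measurable (W a)) ∧
      (∀ a > 0, ∀ σ f, inner ℝ (J f) (W a σ) = smear a f σ) ∧
      (∀ a, Integrable (fun σ => ‖W a σ‖ ^ 2) μ) ∧ (∃ C : ℝ, ∀ a, ∫ σ, ‖W a σ‖ ^ 2 ∂μ ≤ C) ∧
      ∀ ε > 0, ∃ F : Submodule ℝ H, FiniteDimensional ℝ F ∧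
        ∀ a, ∫ σ, infDist (W a σ) (F : Set H) ^ 2 ∂μ ≤ ε := by
  haveI := hF.prob
  obtain ⟨R, hR⟩ := hD.subset_ball 0
  obtain ⟨A, A0, hA⟩ := momH (H := H) hF R
  let t : ℝ → ℝ := fun a => if 0 < a then a else 1
  have t0 : ∀ a, 0 < t a := fun a => by
    simp only [t]
    split_ifs with h
    · exact h
    · exact one_pos
  have mD : MeasurableSet (D : Set ℂ) := D.isOpen.measurableSet
  have M0 : 0 ≤ M := (norm_nonneg _).trans (k2 0)
  let V : (ℂ → H) → ℝ → Config → H := fun b a σ => ∫ z in ball (0 : ℂ) R, ph (t a) z σ • b z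
  have mV : ∀ b, StronglyMeasurable b → ∀ a, StronglyMeasurable (V b a) := fun b hb a =>
    (sm_int hF (t a) hb).integral_prod_left'
  have iV : ∀ b, StronglyMeasurable b → ∀ N : ℝ, (∀ z, ‖b z‖ ≤ N) → ∀ a,
      Integrable (fun σ => ‖V b a σ‖ ^ 2) μ := fun b hb N hN a => by
    refine Integrable.of_bound ((mV b hb a).norm.measurable.pow_const 2).aestronglyMeasurable
      ((t a ^ (-(1 / 8) : ℝ) * N * volume.real (ball (0 : ℂ) R)) ^ 2)
      (Eventually.of_forall fun σ => ?_)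
    rw [norm_pow, norm_norm]
    refine pow_le_pow_left₀ (norm_nonneg _) ?_ 2
    refine norm_setIntegral_le_of_norm_le_const measure_ball_lt_top fun z _ => ?_
    rw [norm_smul]
    exact mul_le_mul (hF.bd _ (t0 a) z σ) (hN z) (norm_nonneg _) (Real.rpow_nonneg (t0 a).le _)
  let b : ℂ → H := (D : Set ℂ).indicator k
  have hb : StronglyMeasurable b := k1.stronglyMeasurable.indicator mD
  have bb : ∀ z, ‖b z‖ ≤ M := fun z => (norm_indicator_le_norm_self k z).trans (k2 z)
  refine ⟨V b, fun a => (mV b hb a).measurable, fun a ha σ f => ?_, iV b hb M bb,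
    ⟨_, fun a => hA _ (t0 a) b hb M bb⟩, fun ε hε => ?_⟩
  · have z0 : ∀ z, z ∉ (D : Set ℂ) → f z = 0 := fun z hz =>
      image_eq_zero_of_notMem_tsupport fun h => hz (f.tsupport_subset h)
    simp only [V]
    rw [← integral_inner (int_W hF R (t0 a) hb bb σ), smear]
    refine Eq.trans ?_ (setIntegral_eq_integral_of_forall_compl_eq_zero (s := ball (0 : ℂ) R)
      fun z hz => by rw [z0 z fun h => hz (hR h), zero_mul])
    refine integral_congr_ae (Eventually.of_forall fun z => ?_)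
    show inner ℝ (J f) (ph (t a) z σ • b z) = f z * ph a z σ
    rw [real_inner_smul_right, show t a = a from if_pos ha, mul_comm]
    congr 1
    by_cases hz : z ∈ (D : Set ℂ)
    · simp only [b, indicator_of_mem hz, k3]
    · simp only [b, indicator_of_notMem hz, inner_zero_right, z0 z hz]
  · obtain ⟨η, η0, hη⟩ : ∃ η > (0 : ℝ), A * η ^ 2 ≤ ε := by
      refine ⟨√(ε / (A + 1)), by positivity, ?_⟩
      rw [Real.sq_sqrt (by positivity), ← mul_div_assoc, div_le_iff₀ (by positivity)]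
      nlinarith
    obtain ⟨F, Q, f1, f2, f3⟩ := P153DK.fin_near ((isCompact_closedBall (0 : ℂ) R).image k1) η0
    have hc : StronglyMeasurable fun z => b z - Q (b z) :=
      hb.sub (Q.continuous.comp_stronglyMeasurable hb)
    have cb : ∀ z, ‖b z - Q (b z)‖ ≤ η := fun z => by
      by_cases hz : z ∈ (D : Set ℂ)
      · simp only [b, indicator_of_mem hz]
        exact f3 _ ⟨z, ball_subset_closedBall (hR hz), rfl⟩
      · simp only [b, indicator_of_notMem hz, map_zero, sub_zero, norm_zero, η0.le]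
    refine ⟨F, f1, fun a => le_trans ?_ ((hA _ (t0 a) _ hc η cb).trans hη)⟩
    refine integral_mono_of_nonneg (Eventually.of_forall fun σ => sq_nonneg _) (iV _ hc η cb a)
      (Eventually.of_forall fun σ => ?_)
    refine pow_le_pow_left₀ infDist_nonneg ((infDist_le_dist_of_mem (f2 (V b a σ))).trans ?_) 2
    have i1 := int_W hF R (t0 a) hb bb σ
    simp only [V]
    rw [dist_eq_norm, ← Q.integral_comp_comm i1, ← integral_sub i1 (Q.integrable_comp i1)]
    simp only [map_smul, smul_sub, le_refl]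

theorem lawH {μ : Measure Config} {Z : ℝ} {C : Pts → ℝ} (hF : Fd μ ph) (hL : Law μ Z C) :
    LawH μ Z C := by
  intro D s hD hs
  obtain ⟨R, -, hR⟩ := exists_R D hs
  refine ⟨⟨_, _, _, R, hR⟩, fun H _ _ J hJ => ?_⟩
  haveI := hF.prob
  haveI := hJ.1
  obtain ⟨_, k, M, k1, k2, k3⟩ := kern hs hJ
  borelize H
  obtain ⟨W, w1, w2, w3, ⟨B, w4⟩, w5⟩ := conv hF hD k1 k2 k3
  choose ν hν hu hl using fun k (f : Fin k → SmoothOn D) =>
    hL k (fun i => f i) fun i => test (f i)
  have ce : ∀ f, Continuous fun T : StrongDual ℝ H => T (J f) := fun f =>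
    (ContinuousLinearMap.apply ℝ ℝ (J f)).continuous
  have cv : ∀ k (f : Fin k → SmoothOn D), Continuous fun T : StrongDual ℝ H =>
      (WithLp.toLp 2 fun i => T (J (f i)) : EuclideanSpace ℝ (Fin k)) := fun k f =>
    (PiLp.continuous_toLp 2 _).comp (continuous_pi fun i => ce (f i))
  have c0 : Continuous fun y : EuclideanSpace ℝ (Fin 1) => y 0 := by fun_prop
  let γ : SmoothOn D → Measure ℝ := fun φ => (ν 1 fun _ => φ).map fun y => y 0
  have hγ : ∀ φ, IsProbabilityMeasure (γ φ) := fun φ =>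
    haveI := (hν 1 fun _ => φ).1
    Measure.isProbabilityMeasure_map c0.measurable.aemeasurable
  have h1 : ∀ φ (F : ℝ → ℝ), Continuous F → (∃ M, ∀ x, |F x| ≤ M) →
      Tendsto (fun a => ∫ σ, F (inner ℝ (J φ) (W a σ)) ∂μ) (𝓝[>] 0) (𝓝 (∫ x, F x ∂γ φ)) := by
    rintro φ F c ⟨N, hN⟩
    rw [integral_map c0.measurable.aemeasurable c.aestronglyMeasurable]
    refine (hl 1 (fun _ => φ) (BoundedContinuousFunction.ofNormedAddCommGroup
      (fun y => F (y 0)) (c.comp c0) N fun y => hN _)).congr' ?_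
    filter_upwards [self_mem_nhdsWithin] with a ha
    simp only [w2 a ha]
    rfl
  have key := fun (u : ℕ → ℝ) (hu : Tendsto u atTop (𝓝[>] 0)) =>
    (P153DI.hil_rv (fun _ => μ) (fun _ => hF.prob) (fun n => W (u n))
      (fun n => (w1 _).aemeasurable) (fun n => w3 _) ⟨B, fun n => w4 _⟩ (fun ε hε => by
        obtain ⟨F, f1, f2⟩ := w5 ε hε
        exact ⟨F, f1, fun n => f2 _⟩) J hJ.2.1 γ hγ fun i F c b => (h1 i F c b).comp hu).2
  obtain ⟨u, hu0⟩ := (𝓝[>] (0 : ℝ)).exists_seq_tendsto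
  obtain ⟨τ, τ1, τ2⟩ := (key u hu0).1
  have mr : Measurable (P153DK.rz : H → StrongDual ℝ H) := P153DK.cont_rz.measurable
  let P : Measure (StrongDual ℝ H) := τ.map P153DK.rz
  haveI hP : IsProbabilityMeasure P := Measure.isProbabilityMeasure_map mr.aemeasurable
  have pm : ∀ φ, P.map (fun T => T (J φ)) = γ φ := fun φ => by
    rw [Measure.map_map (ce φ).measurable mr, ← τ2]
    congr 1
    funext w
    exact P153DK.rz_apply w _
  have lim' : ∀ F : BoundedContinuousFunction (StrongDual ℝ H) ℝ,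
      Tendsto (fun a => ∫ σ, F (P153DK.rz (W a σ)) ∂μ) (𝓝[>] 0) (𝓝 (∫ T, F T ∂P)) := fun F => by
    rw [integral_map mr.aemeasurable F.continuous.aestronglyMeasurable]
    exact tendsto_of_seq_tendsto fun v hv => (key v hv).2 τ τ1 τ2 _
      (F.continuous.comp P153DK.cont_rz) ⟨‖F‖, fun x => F.norm_coe_le_norm _⟩
  have hX : ∀ a > 0, ∀ σ f, P153DK.rz (W a σ) (J f) = smear a f σ := fun a ha σ f =>
    (P153DK.rz_apply _ _).trans (w2 a ha σ f)
  refine ⟨fun a σ => P153DK.rz (W a σ), fun a ha => ⟨mr.comp (w1 a), hX a ha⟩, P,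
    ⟨hP, fun n hn f => ?_⟩, fun P' h' => ?_, lim'⟩
  · haveI := (hν n f).1
    have e : P.map (fun T => WithLp.toLp 2 fun i => T (J (f i))) = ν n f := by
      refine ext_of_forall_integral_eq_of_IsFiniteMeasure fun F => ?_
      rw [integral_map (cv n f).measurable.aemeasurable F.continuous.aestronglyMeasurable]
      refine tendsto_nhds_unique (lim' (F.compContinuous ⟨_, cv n f⟩)) ((hl n f F).congr' ?_)
      filter_upwards [self_mem_nhdsWithin] with a ha
      simp only [BoundedContinuousFunction.compContinuous_apply, ContinuousMap.coe_mk, hX a ha]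
    obtain ⟨k1, k2⟩ := (hν n f).2 n hn id
    have cp : Continuous fun y : EuclideanSpace ℝ (Fin n) => ∏ j, y (id j) := by fun_prop
    rw [← e] at k1 k2
    rw [integral_map (cv n f).measurable.aemeasurable cp.aestronglyMeasurable] at k2
    exact ⟨(integrable_map_measure cp.aestronglyMeasurable
      (cv n f).measurable.aemeasurable).1 k1, k2⟩
  · haveI := h'.1
    refine P153DK.uniq_dual J hJ.2.1 fun φ => ?_
    have e : P'.map (fun T => WithLp.toLp 2 fun _ : Fin 1 => T (J φ)) = ν 1 fun _ => φ := by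
      refine hu 1 _ _ ⟨Measure.isProbabilityMeasure_map
        (cv 1 fun _ => φ).measurable.aemeasurable, fun n hn i => ?_⟩
      have cp : Continuous fun y : EuclideanSpace ℝ (Fin 1) => ∏ j, y (i j) := by fun_prop
      obtain ⟨k1, k2⟩ := h'.2 n hn fun _ => φ
      rw [integral_map (cv 1 fun _ => φ).measurable.aemeasurable cp.aestronglyMeasurable]
      exact ⟨(integrable_map_measure cp.aestronglyMeasurable
        (cv 1 fun _ => φ).measurable.aemeasurable).2 k1, k2⟩
    rw [pm]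
    show _ = (ν 1 fun _ => φ).map fun y => y 0
    rw [← e, Measure.map_map c0.measurable (cv 1 fun _ => φ).measurable]
    rfl

end Vale.Agent.P144H
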